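import Vale.Agent.P218G.GCore

/-! Federer's dimension reduction when the static cones invariant along a line have density less
than two. -/

open MeasureTheory Set Filter Topology Metric
open scoped ENNReal RealInnerProductSpace ContDiff

namespace Vale.Agent.P218R

open Vale.Agent.P218 Vale.Agent.P218.H552
open Vale.Agent.P218G Vale.Agent.P218G.Lit Vale.Agent.P218G.Rg Vale.Agent.P218G.GL
open Vale.Agent.P218G.GC Vale.Agent.P218G.Par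
open Vale.Agent.P218FT (E3 IsShr IsEqn Hv inner_grad)
open Vale.Agent.P218F.Dyn (hm)

lemma grad_perp {C : Set E3} {p n u : E3} {w : E3 → ℝ} (hw : IsEqn C p w) (p0 : p ≠ 0)
    (hn : ∀ y, ⟪n, y⟫ = 0 → y ≠ 0 → y ∈ C) (hp : ⟪n, p⟫ = 0) (hu : ⟪n, u⟫ = 0) :
    ⟪gradient w p, u⟫ = 0 := by
  have l1 : HasDerivAt (fun s : ℝ => p + s • u) u 0 := by
    simpa using ((hasDerivAt_id (0 : ℝ)).smul_const u).const_add p
  have t : Tendsto (fun s : ℝ => p + s • u) (𝓝 0) (𝓝 p) := by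
    simpa using l1.continuousAt.tendsto
  rw [inner_grad]
  refine P218F.Ends.Crv.deriv_zero (c := 0) (HasFDerivAt.comp_hasDerivAt_of_eq (0 : ℝ)
    (hw.1.differentiable (by simp) p).hasFDerivAt l1 (by simp)) ?_
  filter_upwards [t.eventually hw.2.2, t.eventually (eventually_ne_nhds p0)] with s a1 a2
  exact a1.1 (hn _ (by rw [inner_add_right, real_inner_smul_right, hp, hu]; simp) a2)

/-- **A minimal cone of multiplicity one which is smooth away from the vertex has density at most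
one.** -/
theorem cone_le {ν : Measure E3} {D : ℝ} (hE : Ent ν D) {C : Set E3} (hC : IsClosed C)
    (cn : ∀ x ∈ C, ∀ c : ℝ, 0 < c → c • x ∈ C)
    (hν : ν.restrict {0}ᶜ = (μH[2] : Measure E3).restrict (C ∩ {0}ᶜ))
    (sm : ∀ p ∈ C, p ≠ 0 → (∃ w, IsEqn C p w) ∧ Hv C p = 0)
    {σ : ℝ} (hσ : 0 < σ) : GA ν 0 σ ≤ om0 := by
  have o0 := om0_pos
  obtain ⟨v, hv⟩ := exists_norm_eq E3 zero_le_one
  have z : ({0} : Set E3) ⊆ axis v := singleton_subset_iff.2 ⟨0, zero_smul _ _⟩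
  have hG : ENNReal.ofReal (GA ν 0 σ) = ∫⁻ x in C ∩ {0}ᶜ, ENNReal.ofReal (gk0 σ x) ∂μH[2] := by
    rw [← hν, Measure.restrict_eq_self_of_ae_mem (s := ({0} : Set E3)ᶜ)
      (measure_eq_zero_iff_ae_notMem.1 (measure_mono_null z (ent_axis hE hv))), GA,
      ofReal_integral_eq_lintegral_ofReal (hE.int 0 σ hσ)
        (Eventually.of_forall fun x => (gk0_pos hσ _).le)]
    simp only [sub_zero]
  rw [← ENNReal.ofReal_le_ofReal_iff o0.le, hG]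
  rcases (C ∩ {0}ᶜ).eq_empty_or_nonempty with h | ⟨x, hx⟩
  · simp [h]
  obtain ⟨n, n1, -, hn⟩ := plane_sub hC cn sm hx.1 hx.2
  rw [← lintegral_gk0_plane (finrank_perp n1) hσ]
  refine lintegral_mono_set fun x' hx' => ?_
  obtain ⟨n', n1', h1, hn'⟩ := plane_sub hC cn sm hx'.1 hx'.2
  have r1 := Submodule.finrank_sup_add_finrank_inf_eq (ℝ ∙ n)ᗮ (ℝ ∙ n')ᗮ
  have r2 := Submodule.finrank_le ((ℝ ∙ n)ᗮ ⊔ (ℝ ∙ n')ᗮ)
  rw [finrank_perp n1, finrank_perp n1'] at r1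
  rw [finrank_euclideanSpace_fin] at r2
  obtain ⟨p, hp, p0⟩ := Submodule.exists_mem_ne_zero_of_ne_bot
    (p := (ℝ ∙ n)ᗮ ⊓ (ℝ ∙ n')ᗮ) fun e => by
      rw [e, finrank_bot] at r1
      omega
  have q1 := Submodule.mem_orthogonal_singleton_iff_inner_right.1 hp.1
  have q2 := Submodule.mem_orthogonal_singleton_iff_inner_right.1 hp.2
  obtain ⟨⟨w, hw⟩, -⟩ := sm p (hn p q1 p0) p0
  have g1 : gradient w p ∈ (ℝ ∙ n)ᗮᗮ := (Submodule.mem_orthogonal' _ _).2 fun u hu =>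
    grad_perp hw p0 hn q1 (Submodule.mem_orthogonal_singleton_iff_inner_right.1 hu)
  rw [Submodule.orthogonal_orthogonal, Submodule.mem_span_singleton] at g1
  obtain ⟨b, hb⟩ := g1
  have g2 := grad_perp hw p0 hn' q2 h1
  rw [← hb, real_inner_smul_left, mul_eq_zero] at g2
  exact Submodule.mem_orthogonal_singleton_iff_inner_right.2
    (g2.resolve_left fun e => hw.2.1 (by rw [← hb, e, zero_smul]))

variable {μ ν : ℝ → Measure E3} {x₀ : E3} {t₀ a D : ℝ}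

structure Cx (μ : ℝ → Measure E3) (x₀ : E3) (t₀ a D : ℝ) : Prop where
  ibf : IsIntegralBrakkeFlow 2 μ
  fin : μ 0 univ < ⊤
  ur : IsUnitRegular μ
  cyc : Par.IsCyclic μ
  pos : 0 < a
  lt : a < t₀
  gs : GS μ a D
  two : ∀ ν, Lim μ x₀ t₀ ν → SS ν → Stat ν → ∀ v : E3, v ≠ 0 → Inv ν v →
    GA (ν (-1)) 0 1 < 2 * om0

namespace Cx

variable (h : Cx μ x₀ t₀ a D) (hb : Lim μ x₀ t₀ ν) (ss : SS ν)
include h hb

lemma l1 (ss : SS ν) (st : Stat ν) (hp : ∀ p, p ≠ 0 → DL ν p (-1)) :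
    GA (ν (-1)) 0 1 ≤ om0 := by
  obtain ⟨ι, U, x, t, lam, hb⟩ := hb
  obtain ⟨ε, hε, -, h4⟩ := lim_rs hb h.ibf h.fin h.ur h.gs h.pos.le h.lt
  have hg := fun b => (h4 b).gs
  have hK := fun p c => rs_mem h4 hε (hp p c)
  refine cone_le ((hg (-1)).ent _ le_rfl) ((hg (-2)).isClosed_spt (by norm_num))
    (spt_cone ss st hg) (restrict_sub ((h4 0).meas _) (measurableSet_singleton 0).compl hK)
    (fun p hp p0 => static_Hv (h4 0).mcf (hK p p0) hp ?_) one_pos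
  filter_upwards [gt_mem_nhds (show (-1 : ℝ) < 0 by norm_num)] with s hs
  rwa [st.spt_eq hg hs.le]

lemma tangent (y : E3) (t : ℝ) {θ : ℝ} (hθ : Dens ν y t θ) : ∃ ν', Lim μ x₀ t₀ ν' ∧ SS ν' ∧
    GA (ν' (-1)) 0 1 = θ ∧ Ent (ν' (-1)) θ ∧ (t ≤ 0 → Stat ν → Stat ν') ∧
    (t ≤ 0 → ∀ v, Inv ν v → Inv ν' v) ∧ (t < 0 → SS ν → Stat ν') ∧ (t = 0 → SS ν → Inv ν' y) :=
  let ⟨ν', _, a1, a2, a3, a5, a4⟩ :=
    hb.exists_tangent h.gs ((key_ibf h.ibf h.fin).later h.pos.le) h.lt y t hθ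
  ⟨ν', a1, a2, a3 1 one_pos, a5 _, a4⟩

include ss

lemma c2 (st : Stat ν) {v p : E3} (hv : ‖v‖ = 1) (iv : Inv ν v) (hp : p ∉ Par.axis v) :
    DL ν p (-1) := fun θ hθ => by
  obtain ⟨ν', a1, a2, a3, a7, a4, a5, -, a6⟩ := h.tangent hb p 0 (dens_zero st (by norm_num) hθ)
  have v0 : v ≠ 0 := fun c => by simp [c] at hv
  have b := h.two ν' a1 a2 (a4 le_rfl st) v v0 (a5 le_rfl v iv)
  have := Itg.p2 h.ibf h.fin h.gs h.lt (h.pos.trans h.lt) a1 a2 (a4 le_rfl st)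
    v0 (fun z c => hp ⟨z, c.symm⟩) (a5 le_rfl v iv) (a6 rfl ss) a7 (by rwa [a3] at b)
  rwa [a3] at this

lemma c1 (st : Stat ν) {p : E3} (hp : p ≠ 0) : DL ν p (-1) := fun θ hθ => by
  obtain ⟨ν', a1, a2, a3, -, a4, -, -, a6⟩ := h.tangent hb p 0 (dens_zero st (by norm_num) hθ)
  have iv : Inv ν' (‖p‖⁻¹ • p) := fun b s hs => by rw [smul_smul]; exact a6 rfl ss _ s hs
  exact a3 ▸ l0_lim h.ibf h.fin h.ur h.cyc h.gs h.pos.le h.lt a1 a2 (a4 le_rfl st)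
    (norm_smul_inv_norm hp) iv (h.two ν' a1 a2 (a4 le_rfl st) p hp (a6 rfl ss)) fun q hq =>
      h.c2 a1 a2 (a4 le_rfl st) (norm_smul_inv_norm hp) iv hq

lemma c0 (y : E3) {t : ℝ} (ht : t < 0) : DL ν y t := fun θ hθ => by
  obtain ⟨ν', a1, a2, a3, -, -, -, a5, -⟩ := h.tangent hb y t hθ
  exact a3 ▸ h.l1 a1 a2 (a5 ht ss) fun q hq => h.c1 a1 a2 (a5 ht ss) hq

end Cx

theorem Cx.gc (c : Cx μ x₀ t₀ a D) :
    ∃ S : Set E3, IsShr S ∧ BddGeom S ∧ hm S ∈ tangentSlices 2 μ x₀ t₀ := by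
  obtain ⟨ε, hg⟩ := exists_eps D
  obtain ⟨T, H, hBF⟩ := H552.exists_BF c.ibf
  obtain ⟨κ, ⟨S, a1, a2, rfl⟩, a3⟩ := Dyn.mem_tangentSlices (x₀ := x₀) hBF c.fin (c.pos.trans c.lt)
    (P := fun κ => ∃ S, IsShr S ∧ BddGeom S ∧ κ = hm S) fun U lam hl => by
      obtain ⟨ν, hB⟩ := exists_blow U hl c.gs x₀ c.lt
      have hs' := hB.ss c.gs c.lt ((key_ibf c.ibf c.fin).later c.pos.le)
      obtain ⟨K, hK⟩ := hB.toLim.rsG hg (hg.ibf μ a c.ibf c.fin c.ur c.pos.le c.gs) c.lt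
      obtain ⟨b1, -, -, b2, D', b3⟩ := shr_of hK hs' fun y t ht' =>
        (hK (t - 1)).memG hg (by linarith) (c.c0 hB.toLim hs' y ht')
      exact ⟨ν (-1), ⟨_, b1, bdd_lim c.ibf c.fin c.ur c.pos.le c.gs c.lt hB.toLim hs' b1 b3 rfl
        fun ν' d1 d2 y => c.c0 d1 d2 y (by norm_num), b2⟩, hB.lf _, hB.lim (-1)⟩
  exact ⟨S, a1, a2, a3⟩

end Vale.Agent.P218R
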