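import Vale.Agent.P218G.L01

/-! Static cones invariant along a line of density less than `3 / 2`, without parity. -/

open MeasureTheory Set Filter Topology Metric Real
open scoped ENNReal RealInnerProductSpace

namespace Vale.Agent.P218R

open Vale.Agent.P218
open Vale.Agent.P218G Vale.Agent.P218G.Lit Vale.Agent.P218G.Rg Vale.Agent.P218G.GL
open Vale.Agent.P218G.GC Vale.Agent.P218G.Par
open Vale.Agent.P218FT

/-- a union of half planes along a line of density less than `3 / 2` has density at most one -/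
theorem half_32 {ν : Measure E3} {D : ℝ} (hE : Ent ν D) {C : Set E3} {v : E3} (hv : ‖v‖ = 1)
    (cone : ∀ x ∈ C, ∀ c : ℝ, 0 < c → c • x ∈ C) (inv : ∀ x ∈ C, ∀ z : ℝ, x + z • v ∈ C)
    (hν : ν.restrict (axis v)ᶜ = (μH[2] : Measure E3).restrict (C ∩ (axis v)ᶜ))
    {σ : ℝ} (hσ : 0 < σ) (h2 : GA ν 0 σ < 3 / 2 * om0) : GA ν 0 σ ≤ om0 := by
  obtain ⟨a, b, hT⟩ := exists_triple hv
  have o0 := om0_pos
  have hG : ENNReal.ofReal (GA ν 0 σ) =
      ∫⁻ x in C ∩ (axis v)ᶜ, ENNReal.ofReal (gk0 σ x) ∂μH[2] := by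
    rw [← hν, Measure.restrict_eq_self_of_ae_mem (s := (axis v)ᶜ)
      (measure_eq_zero_iff_ae_notMem.1 (ent_axis hE hv)), GA,
      ofReal_integral_eq_lintegral_ofReal (hE.int 0 σ hσ)
        (Eventually.of_forall fun x => (gk0_pos hσ _).le)]
    simp only [sub_zero]
  have sub : ∀ s, cir a b s ∈ C → hpl a b s ⊆ C ∩ (axis v)ᶜ := fun s hs x hx =>
    ⟨hpl_eq hT hx ▸ inv _ (cone _ hs _ hx.2) _, not_axis hT hx.2⟩
  have sub' : ∀ s, ∀ x ∈ hpl a b s, x ∈ C → cir a b s ∈ C := fun s x hx hC => by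
    have h1 := cone _ (inv x hC (-⟪v, x⟫)) _ (inv_pos.2 hx.2)
    rwa [show x + (-⟪v, x⟫) • v = ⟪cir a b s, x⟫ • cir a b s by
      rw [neg_smul, ← sub_eq_add_neg, sub_eq_iff_eq_add]; exact hpl_eq hT hx,
      inv_smul_smul₀ hx.2.ne'] at h1
  have bound : ∀ F : Finset ℝ, (∀ s ∈ F, s ∈ Ico 0 (0 + 2 * π) ∧ cir a b s ∈ C) →
      F.card < 3 := fun F hF => by
    have h1 : ENNReal.ofReal (F.card * (om0 / 2)) ≤ ENNReal.ofReal (GA ν 0 σ) := by
      rw [hG, ← lintegral_hpls hT F (fun s hs => (hF s hs).1) hσ]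
      exact lintegral_mono_set (iUnion₂_subset fun s hs => sub s (hF s hs).2)
    rw [ENNReal.ofReal_le_ofReal_iff (GA_nonneg _ _ hσ.le)] at h1
    exact_mod_cast (by nlinarith : (F.card : ℝ) < 3)
  have fin : {s ∈ Ico 0 (0 + 2 * π) | cir a b s ∈ C}.Finite := by
    by_contra h
    obtain ⟨F, h1, h3⟩ := Set.Infinite.exists_subset_card_eq h 3
    exact absurd (bound F fun s hs => h1 hs) (by omega)
  have mem : ∀ s, s ∈ fin.toFinset ↔ s ∈ Ico 0 (0 + 2 * π) ∧ cir a b s ∈ C :=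
    fun s => Finite.mem_toFinset _
  have cov : C ∩ (axis v)ᶜ ⊆ ⋃ s ∈ fin.toFinset, hpl a b s := fun x hx => by
    obtain ⟨s, h1, h3⟩ := exists_hpl hT hx.2 0
    exact mem_iUnion₂.2 ⟨s, (mem s).2 ⟨h1, sub' s x h3 hx.1⟩, h3⟩
  have c2 : (fin.toFinset.card : ℝ) ≤ 2 := by
    exact_mod_cast Nat.lt_succ_iff.1 (bound _ fun s hs => (mem s).1 hs)
  rw [← ENNReal.ofReal_le_ofReal_iff o0.le, hG]
  refine (lintegral_mono_set cov).trans ?_
  rw [lintegral_hpls hT _ (fun s hs => ((mem s).1 hs).1) hσ]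
  exact ENNReal.ofReal_le_ofReal (by nlinarith)

/-- `GL.l0_lim` for flows which need not be cyclic -/
theorem l0_32 {μ ν : ℝ → Measure E3} {a D t₀ : ℝ} {x₀ : E3} (hμ : IsIntegralBrakkeFlow 2 μ)
    (h0 : μ 0 univ < ⊤) (hU : IsUnitRegular μ) (h : GS μ a D) (ha : 0 ≤ a) (ht : a < t₀)
    (hb : Lim μ x₀ t₀ ν) (ss : SS ν) (st : Stat ν) {v : E3} (hv : ‖v‖ = 1) (iv : Inv ν v)
    (h2 : GA (ν (-1)) 0 1 < 3 / 2 * om0) (hp : ∀ p, p ∉ axis v → DL ν p (-1)) :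
    GA (ν (-1)) 0 1 ≤ om0 := by
  obtain ⟨ι, U, x, t, lam, hb⟩ := hb
  obtain ⟨ε, hε, -, h4⟩ := lim_rs hb hμ h0 hU h ha ht
  have hg := fun b => (h4 b).gs
  exact half_32 ((hg (-1)).ent _ le_rfl) hv (spt_cone ss st hg) (spt_inv iv st hg)
    (restrict_sub ((h4 0).meas _) (isClosed_axis v).measurableSet.compl
      fun p c => rs_mem h4 hε (hp p c)) one_pos h2

end Vale.Agent.P218R
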