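import Vale.Agent.P218G.St

/-! Blow-up limits of time slices which are cones invariant along a line. -/

open MeasureTheory Filter Topology

namespace Vale.Agent.P218R.St

open Vale.Agent.P218 (densityRatio rescaled WeakTendsto)
open Vale.Agent.P218G.St (planeDensity)

variable {E : Type} [NormedAddCommGroup E] [InnerProductSpace ℝ E] [FiniteDimensional ℝ E]
  [MeasurableSpace E] [BorelSpace E]

/-- `κ` is a blow-up limit of time slices near `(x₀, t₀)`: a weak limit of the measures
`λ_i (μ_{t_i} - x_i)` with `x_i → x₀`, `t_i → t₀`, `λ_i → ∞` -/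
def IsSliceLimit (μ : ℝ → Measure E) (x₀ : E) (t₀ : ℝ) (κ : Measure E) : Prop :=
  IsLocallyFiniteMeasure κ ∧ ∃ (x : ℕ → E) (t lam : ℕ → ℝ), Tendsto x atTop (𝓝 x₀) ∧
    Tendsto t atTop (𝓝 t₀) ∧ Tendsto lam atTop atTop ∧
    WeakTendsto (fun i => rescaled 2 μ (x i) (t i) (lam i) 0) κ

/-- `κ` is a two-dimensional cone which is invariant under the translations along a line -/
def IsLineCone (κ : Measure E) : Prop :=
  (∀ c : ℝ, 0 < c → ENNReal.ofReal (c ^ 2) • κ.map (fun x => c • x) = κ) ∧
    ∃ v : E, v ≠ 0 ∧ ∀ b : ℝ, κ.map (fun x => x + b • v) = κ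

/-- the blow-up limits of time slices near `(x₀, t₀)` which are cones invariant along a line have
Gaussian density less than two -/
def NoDoubleCone (μ : ℝ → Measure E) (x₀ : E) (t₀ : ℝ) : Prop :=
  ∀ κ, IsSliceLimit μ x₀ t₀ κ → IsLineCone κ →
    densityRatio 2 (fun _ => κ) 0 0 1 < 2 * planeDensity

end Vale.Agent.P218R.St
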